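import Mathlib

namespace Vale.Agent.Results.P095.InnerActions

/-- A unital C*-algebra is simple: it is nonzero and its only closed two-sided ideals are
`0` and the whole algebra. -/
def IsSimpleCStar (A : Type*) [CStarAlgebra A] : Prop :=
  Nontrivial A ∧ ∀ I : TwoSidedIdeal A, IsClosed (I : Set A) → I = ⊥ ∨ I = ⊤

/-- Cocycle conjugacy of two actions of `G` on unital C*-algebras `A` and `B`
(for unital `B` the multiplier algebra of `B` is `B` itself). -/
def CocycleConjugate {G A B : Type*} [Group G] [CStarAlgebra A] [CStarAlgebra B]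
    (α : G →* (A ≃⋆ₐ[ℂ] A)) (β : G →* (B ≃⋆ₐ[ℂ] B)) : Prop :=
  ∃ (Φ : A ≃⋆ₐ[ℂ] B) (u : G → unitary B),
    (∀ g h, (u (g * h) : B) = u g * β g (u h)) ∧
    ∀ g a, Φ (α g a) = u g * β g (Φ a) * star (u g : B)

theorem central_scalar {A : Type*} [CStarAlgebra A] (hA : IsSimpleCStar A) (z : A)
    (hz : ∀ a, z * a = a * z) : ∃ c : ℂ, z = algebraMap ℂ A c := by
  obtain ⟨hnt, hA⟩ := hA
  obtain ⟨c, hc⟩ := spectrum.nonempty z
  refine ⟨c, ?_⟩
  set y : A := algebraMap ℂ A c - z with hy
  have hyc : ∀ a, y * a = a * y := by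
    intro a
    rw [hy, sub_mul, mul_sub, hz a, Algebra.commutes]
  have hnu : ¬ IsUnit y := hc
  set I0 : Ideal A := Ideal.span {y} with hI0
  have hI0top : I0 ≠ ⊤ := by
    intro h
    have h1 : (1 : A) ∈ I0 := by rw [h]; trivial
    rw [hI0, Ideal.mem_span_singleton'] at h1
    obtain ⟨a, ha⟩ := h1
    exact hnu ⟨⟨y, a, by rw [hyc, ha], ha⟩, rfl⟩
  have hcl := I0.closure_ne_top hI0top
  have hright : ∀ x b, x ∈ I0 → x * b ∈ I0 := by
    intro x b hx
    rw [hI0, Ideal.mem_span_singleton'] at hx ⊢
    obtain ⟨a, rfl⟩ := hx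
    exact ⟨a * b, by rw [mul_assoc, mul_assoc, hyc b]⟩
  let J : TwoSidedIdeal A := TwoSidedIdeal.mk' (I0.closure : Set A)
    (I0.closure.zero_mem) (fun hx hy => I0.closure.add_mem hx hy)
    (fun hx => I0.closure.neg_mem hx) (fun hy => I0.closure.mul_mem_left _ hy)
    (by
      intro x b hx
      have hcont : Continuous (fun t : A => t * b) := continuous_id.mul continuous_const
      exact map_mem_closure (f := fun t : A => t * b) (s := (I0 : Set A)) (t := (I0 : Set A))
        hcont hx (fun t ht => hright t b ht))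
  have hJ : (J : Set A) = (I0.closure : Set A) := TwoSidedIdeal.coe_mk' _ _ _ _ _ _
  have hJcl : IsClosed (J : Set A) := by
    rw [hJ]; exact isClosed_closure
  have hyJ : y ∈ J := by
    have : y ∈ (J : Set A) := by
      rw [hJ]; exact subset_closure (Ideal.mem_span_singleton_self y)
    exact this
  rcases hA J hJcl with h | h
  · rw [h] at hyJ
    have : y = 0 := by simpa using hyJ
    rw [hy, sub_eq_zero] at this
    exact this.symm
  · exfalso
    apply hcl
    rw [Ideal.eq_top_iff_one]
    have : (1 : A) ∈ (J : Set A) := by rw [h]; trivial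
    rw [hJ] at this
    exact this

theorem eq_conj_of_generators {C : Type*} [CStarAlgebra C] (S : Set C)
    (hgen : (StarAlgebra.adjoin ℂ S).topologicalClosure = ⊤)
    (φ ψ : C ≃⋆ₐ[ℂ] C) (h : ∀ x ∈ S, φ x = ψ x) (x : C) : φ x = ψ x := by
  have hle : StarAlgebra.adjoin ℂ S ≤ StarAlgHom.equalizer φ ψ :=
    StarAlgHom.adjoin_le_equalizer φ ψ h
  have hcl : IsClosed ((StarAlgHom.equalizer φ ψ : StarSubalgebra ℂ C) : Set C) := by
    have h1 : Continuous φ := (StarAlgEquiv.isometry φ).continuous
    have h2 : Continuous ψ := (StarAlgEquiv.isometry ψ).continuous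
    exact isClosed_eq h1 h2
  have hle2 : (StarAlgebra.adjoin ℂ S).topologicalClosure ≤ StarAlgHom.equalizer φ ψ :=
    StarSubalgebra.topologicalClosure_minimal hle hcl
  rw [hgen] at hle2
  exact hle2 (Set.mem_univ x)

/-- Let `A` be a simple unital C*-algebra and let `C` be a unital C*-algebra generated by
commuting unital copies `jA`, `jD` of `A` and of a unital C*-algebra `D`
(for instance `C = A ⊗ D`, `jA a = a ⊗ 1`, `jD d = 1 ⊗ d`, with `D` the Jiang-Su algebra).
Let `α` be an action of a group `G` on `A` by inner automorphisms and `β` the action on `C`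
that is `α` on the copy of `A` and trivial on the copy of `D` (that is, `β = α ⊗ id`).
If `A` is isomorphic to `C`, then `α` and `β` are cocycle conjugate. -/
theorem result {G A D C : Type*} [Group G] [CStarAlgebra A] [CStarAlgebra D] [CStarAlgebra C]
    (hA : IsSimpleCStar A)
    (jA : A →⋆ₐ[ℂ] C) (jD : D →⋆ₐ[ℂ] C)
    (hcomm : ∀ a d, jA a * jD d = jD d * jA a)
    (hgen : (StarAlgebra.adjoin ℂ (Set.range jA ∪ Set.range jD)).topologicalClosure = ⊤)
    (α : G →* (A ≃⋆ₐ[ℂ] A)) (β : G →* (C ≃⋆ₐ[ℂ] C))
    (hβA : ∀ g a, β g (jA a) = jA (α g a)) (hβD : ∀ g d, β g (jD d) = jD d)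
    (hinner : ∀ g, ∃ v : unitary A, ∀ a, α g a = v * a * star (v : A))
    (hstab : Nonempty (A ≃⋆ₐ[ℂ] C)) :
    CocycleConjugate α β := by
  classical
  choose v hv using hinner
  obtain ⟨Φ⟩ := hstab
  have hvs : ∀ g, star (v g : A) * v g = 1 := fun g => Unitary.coe_star_mul_self (v g)
  have hvs' : ∀ g, (v g : A) * star (v g : A) = 1 := fun g => Unitary.coe_mul_star_self (v g)
  -- images of the implementing unitaries
  let w : G → unitary C := fun g => ⟨jA (v g), by
    rw [Unitary.mem_iff]
    constructor
    · rw [← map_star, ← map_mul, hvs, map_one]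
    · rw [← map_star, ← map_mul, hvs', map_one]⟩
  let t : G → unitary C := fun g => ⟨Φ (v g), by
    rw [Unitary.mem_iff]
    constructor
    · rw [← map_star, ← map_mul, hvs, map_one]
    · rw [← map_star, ← map_mul, hvs', map_one]⟩
  have hw : ∀ g, (w g : C) = jA (v g) := fun g => rfl
  have ht : ∀ g, (t g : C) = Φ (v g) := fun g => rfl
  have hβ : ∀ g x, β g x = w g * x * star (w g : C) := by
    intro g x
    refine eq_conj_of_generators _ hgen (β g) (Unitary.conjStarAlgAut ℂ C (w g)) ?_ x
    rintro y (⟨a, rfl⟩ | ⟨d, rfl⟩)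
    · rw [hβA, hv, Unitary.conjStarAlgAut_apply, hw, map_mul, map_mul, map_star]
    · rw [hβD, Unitary.conjStarAlgAut_apply, hw, hcomm, mul_assoc, ← map_star, ← map_mul, hvs',
        map_one, mul_one]
  -- the scalar 2-cocycle
  have hsc : ∀ g h, ∃ c : ℂ, (v g : A) * v h = c • (v (g * h) : A) ∧ c * star c = 1 := by
    intro g h
    have hcen : ∀ a, (star (v (g * h) : A) * (v g * v h)) * a
        = a * (star (v (g * h) : A) * (v g * v h)) := by
      intro a
      have h1 : α (g * h) a = α g (α h a) := by rw [map_mul]; rfl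
      rw [hv, hv g, hv h] at h1
      have h2 : (v g : A) * v h * a = v (g * h) * a * star (v (g * h) : A) * (v g * v h) := by
        rw [h1]
        calc (v g : A) * v h * a = v g * (v h * a * (star (v h : A) * v h)) := by
              rw [hvs h, mul_one]; simp only [mul_assoc]
          _ = v g * (v h * a * star (v h : A)) * (star (v g : A) * v g) * v h := by
              rw [hvs g, mul_one]; simp only [mul_assoc]
          _ = _ := by simp only [mul_assoc]
      calc star (v (g * h) : A) * (v g * v h) * a = star (v (g * h) : A) * (v g * v h * a) := by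
            noncomm_ring
        _ = (star (v (g * h) : A) * v (g * h)) * a * star (v (g * h) : A) * (v g * v h) := by
            rw [h2]; noncomm_ring
        _ = _ := by rw [hvs, one_mul, mul_assoc]
    obtain ⟨c, hc⟩ := central_scalar hA _ hcen
    have hprod : (v g : A) * v h = c • (v (g * h) : A) := by
      calc (v g : A) * v h = (v (g * h) * star (v (g * h) : A)) * (v g * v h) := by
            rw [hvs', one_mul]
        _ = v (g * h) * (star (v (g * h) : A) * (v g * v h)) := by rw [mul_assoc]
        _ = _ := by rw [hc, Algebra.algebraMap_eq_smul_one, mul_smul_comm, mul_one]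
    refine ⟨c, hprod, ?_⟩
    have hnt : Nontrivial A := hA.1
    have h3 : ((v g : A) * v h) * star ((v g : A) * v h) = 1 := by
      rw [star_mul]
      calc (v g : A) * v h * (star (v h : A) * star (v g : A))
          = v g * (v h * star (v h : A)) * star (v g : A) := by noncomm_ring
        _ = 1 := by rw [hvs', mul_one, hvs']
    rw [hprod, star_smul, smul_mul_smul_comm, hvs'] at h3
    have h4 : (c * star c) • (1 : A) = (1 : ℂ) • (1 : A) := by rw [h3, one_smul]
    exact smul_left_injective ℂ (one_ne_zero (α := A)) h4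
  refine ⟨Φ, fun g => t g * star (w g), ?_, ?_⟩
  · intro g h
    obtain ⟨c, hc, hcc⟩ := hsc g h
    have e1 : (t g : C) * t h = c • (t (g * h) : C) := by
      rw [ht, ht, ht, ← map_mul, hc, map_smul]
    have e2 : (w g : C) * w h = c • (w (g * h) : C) := by
      rw [hw, hw, hw, ← map_mul, hc, map_smul]
    have hws : ∀ g, star (w g : C) * w g = 1 := fun g => Unitary.coe_star_mul_self (w g)
    rw [hβ]
    simp only [Submonoid.coe_mul, Unitary.coe_star]
    calc (t (g * h) : C) * star (w (g * h) : C)
        = (c * star c) • ((t (g * h) : C) * star (w (g * h) : C)) := by rw [hcc, one_smul]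
      _ = (c • (t (g * h) : C)) * star (c • (w (g * h) : C)) := by
          rw [star_smul, smul_mul_smul_comm]
      _ = ((t g : C) * t h) * star ((w g : C) * w h) := by rw [e1, e2]
      _ = (t g : C) * (star (w g : C) * w g) * (t h * star (w h : C)) * star (w g : C) := by
          rw [hws, star_mul]; simp only [mul_assoc, mul_one]
      _ = _ := by simp only [mul_assoc]
  · intro g a
    have hws : ∀ g, star (w g : C) * w g = 1 := fun g => Unitary.coe_star_mul_self (w g)
    rw [hβ, hv]
    simp only [Submonoid.coe_mul, Unitary.coe_star, star_mul, star_star, map_mul, map_star]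
    rw [ht]
    calc Φ (v g) * Φ a * star (Φ (v g))
        = Φ (v g) * (star (w g : C) * w g) * Φ a * (star (w g : C) * w g) * star (Φ (v g)) := by
          rw [hws]; simp only [mul_assoc, mul_one]
      _ = _ := by simp only [mul_assoc]

end Vale.Agent.Results.P095.InnerActions
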